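import Vale.Agent.Lib.P226.Blocks

open MeasureTheory ProbabilityTheory

/-- Summary of what is proved about the propeller functional
`F = ∑_i |∫_{A_i} x dγ_d|²` in every dimension `d` and for every number of cells.

First part, for pairwise disjoint measurable `A_0, …, A_{k-1}`:
(a) `F ≤ 9/(7π)`;
(b) `F ≤ 9/(8π)` if all cells have measure at most `1/7`;
(c) `F ≤ 9/(8π)` if some cell has measure at least `37/72`;
(d) `F ≤ 1/π` if `x ↦ -x` permutes the cells (through an involution `σ` of the indices).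

Second part, for a measurable partition into cells `A j c` (`j < m`, `c < 3`):
(e) `F ≤ 9/(8π) + (1/3) ∑_j |∫_{B_j} x dγ_d|²`, where `B_j = ⋃_c A j c`. -/
theorem Vale.Agent.Results.P226.AllCases.result (d : ℕ) :
    (∀ (k : ℕ) (A : Fin k → Set (EuclideanSpace ℝ (Fin d))),
      (∀ i, MeasurableSet (A i)) → (∀ i j, i ≠ j → Disjoint (A i) (A j)) →
      (∑ i, ‖∫ x in A i, x ∂(stdGaussian (EuclideanSpace ℝ (Fin d)))‖ ^ 2
        ≤ 9 / (7 * Real.pi)) ∧
      ((∀ i, (stdGaussian (EuclideanSpace ℝ (Fin d))).real (A i) ≤ 1 / 7) →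
        ∑ i, ‖∫ x in A i, x ∂(stdGaussian (EuclideanSpace ℝ (Fin d)))‖ ^ 2
          ≤ 9 / (8 * Real.pi)) ∧
      ((∃ i, 37 / 72 ≤ (stdGaussian (EuclideanSpace ℝ (Fin d))).real (A i)) →
        ∑ i, ‖∫ x in A i, x ∂(stdGaussian (EuclideanSpace ℝ (Fin d)))‖ ^ 2
          ≤ 9 / (8 * Real.pi)) ∧
      (∀ σ : Fin k → Fin k, Function.Involutive σ → (∀ i, A (σ i) = {x | -x ∈ A i}) →
        ∑ i, ‖∫ x in A i, x ∂(stdGaussian (EuclideanSpace ℝ (Fin d)))‖ ^ 2
          ≤ 1 / Real.pi)) ∧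
    (∀ (m : ℕ) (A : Fin m → Fin 3 → Set (EuclideanSpace ℝ (Fin d))),
      (∀ j c, MeasurableSet (A j c)) →
      (∀ j c j' c', (j, c) ≠ (j', c') → Disjoint (A j c) (A j' c')) →
      (⋃ j, ⋃ c, A j c = Set.univ) →
      ∑ j, ∑ c, ‖∫ x in A j c, x ∂(stdGaussian (EuclideanSpace ℝ (Fin d)))‖ ^ 2
        ≤ 9 / (8 * Real.pi)
          + (∑ j, ‖∫ x in ⋃ c, A j c, x ∂(stdGaussian (EuclideanSpace ℝ (Fin d)))‖ ^ 2) / 3) :=
  ⟨fun _ A hA hdisj =>
    ⟨Vale.Agent.Lib.P226.propeller_universal A hA (fun _ _ hij => hdisj _ _ hij),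
     Vale.Agent.Lib.P226.propeller_small_cells A hA (fun _ _ hij => hdisj _ _ hij),
     Vale.Agent.Lib.P226.propeller_large_cell A hA (fun _ _ hij => hdisj _ _ hij),
     fun σ hσ hσA =>
      Vale.Agent.Lib.P226.propeller_symmetric A hA (fun _ _ hij => hdisj _ _ hij) σ hσ hσA⟩,
   fun _ A hA hdisj hcov => Vale.Agent.Lib.P226.propeller_blocks A hA hdisj hcov⟩
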