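import Vale.Agent.Lib.P226.Blocks

open MeasureTheory ProbabilityTheory

/-- Let the cells `A j c` (`j < m`, `c < 3`, cells may be empty) form a measurable partition of
`ℝ^d`, and let `B j = ⋃_c A j c` be the blocks.
(1) `∑_{j,c} |z(A j c)|² ≤ 9/(8π) + (1/3) ∑_j |z(B j)|²`.
(2) If every block has zero Gaussian first moment (for instance if every block is centrally
symmetric), the propeller inequality `∑_{j,c} |z(A j c)|² ≤ 9/(8π)` holds. -/
theorem Vale.Agent.Results.P226.BalancedBlocks.result (d m : ℕ)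
    (A : Fin m → Fin 3 → Set (EuclideanSpace ℝ (Fin d)))
    (hA : ∀ j c, MeasurableSet (A j c))
    (hdisj : ∀ j c j' c', (j, c) ≠ (j', c') → Disjoint (A j c) (A j' c'))
    (hcov : ⋃ j, ⋃ c, A j c = Set.univ) :
    (∑ j, ∑ c, ‖∫ x in A j c, x ∂(stdGaussian (EuclideanSpace ℝ (Fin d)))‖ ^ 2
      ≤ 9 / (8 * Real.pi)
        + (∑ j, ‖∫ x in ⋃ c, A j c, x ∂(stdGaussian (EuclideanSpace ℝ (Fin d)))‖ ^ 2) / 3) ∧
    ((∀ j, ∫ x in ⋃ c, A j c, x ∂(stdGaussian (EuclideanSpace ℝ (Fin d))) = 0) →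
      ∑ j, ∑ c, ‖∫ x in A j c, x ∂(stdGaussian (EuclideanSpace ℝ (Fin d)))‖ ^ 2
        ≤ 9 / (8 * Real.pi)) := by
  have h := Vale.Agent.Lib.P226.propeller_blocks A hA hdisj hcov
  refine ⟨h, fun h0 => ?_⟩
  simpa [h0] using h
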