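import Vale.Agent.Lib.P226.Basic

open MeasureTheory ProbabilityTheory

/-- For all `d`, `k` and every family of `k` pairwise disjoint measurable subsets of `ℝ^d`
(in particular every measurable partition):
(1) the propeller functional is at most `9/(7π)`;
(2) it is at most the conjectured `9/(8π)` if every cell has Gaussian measure at most `1/7`;
(3) it is at most the conjectured `9/(8π)` if some cell has Gaussian measure at least `37/72`. -/
theorem Vale.Agent.Results.P226.ProfileRestrictions.result (d k : ℕ)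
    (A : Fin k → Set (EuclideanSpace ℝ (Fin d)))
    (hA : ∀ i, MeasurableSet (A i))
    (hdisj : ∀ i j, i ≠ j → Disjoint (A i) (A j)) :
    (∑ i, ‖∫ x in A i, x ∂(stdGaussian (EuclideanSpace ℝ (Fin d)))‖ ^ 2
      ≤ 9 / (7 * Real.pi)) ∧
    ((∀ i, (stdGaussian (EuclideanSpace ℝ (Fin d))).real (A i) ≤ 1 / 7) →
      ∑ i, ‖∫ x in A i, x ∂(stdGaussian (EuclideanSpace ℝ (Fin d)))‖ ^ 2
        ≤ 9 / (8 * Real.pi)) ∧
    ((∃ i, 37 / 72 ≤ (stdGaussian (EuclideanSpace ℝ (Fin d))).real (A i)) →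
      ∑ i, ‖∫ x in A i, x ∂(stdGaussian (EuclideanSpace ℝ (Fin d)))‖ ^ 2
        ≤ 9 / (8 * Real.pi)) :=
  ⟨Vale.Agent.Lib.P226.propeller_universal A hA (fun _ _ hij => hdisj _ _ hij),
   Vale.Agent.Lib.P226.propeller_small_cells A hA (fun _ _ hij => hdisj _ _ hij),
   Vale.Agent.Lib.P226.propeller_large_cell A hA (fun _ _ hij => hdisj _ _ hij)⟩
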