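import Vale.Agent.Lib.P226.Basic

open MeasureTheory ProbabilityTheory

/-- For all `d`, `k` and every family of `k` pairwise disjoint measurable subsets of `ℝ^d`
(in particular every measurable partition), the sum of the squared norms of the unnormalised
Gaussian first moments is at most `9/(7π)`, i.e. within the factor `8/7` of the value
`9/(8π)` conjectured by Khot and Naor. -/
theorem Vale.Agent.Results.P226.UniversalBound.result (d k : ℕ)
    (A : Fin k → Set (EuclideanSpace ℝ (Fin d)))
    (hA : ∀ i, MeasurableSet (A i))
    (hdisj : ∀ i j, i ≠ j → Disjoint (A i) (A j)) :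
    ∑ i, ‖∫ x in A i, x ∂(stdGaussian (EuclideanSpace ℝ (Fin d)))‖ ^ 2
      ≤ 9 / (7 * Real.pi) :=
  Vale.Agent.Lib.P226.propeller_universal A hA (fun _ _ hij => hdisj _ _ hij)
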